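import Vale.Agent.P354KX.Defs
import Vale.Agent.P354YO.Patch

/-!
GLUE: the kicked metric is glued into the development.
-/

open scoped ContDiff
open Set Filter Topology

noncomputable section

namespace Vale.Agent.P354GL

open Vale.Agent.P354n (R4 mink)
open Vale.Agent.P354C (Ix met detP th eta)
open Vale.Agent.P354R (Pull)
open Vale.Agent.P354RC (surj_of_inj)
open Vale.Agent.P354GT (Fu)
open Vale.Agent.P354XE (Tw Lor pb)
open Vale.Agent.P354EN (Dm box_open)
open Vale.Agent.P354YO (mink_pos mink_neg met_comb met_comb' lor_mono lor_local lor_push exists_inv)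
open Vale.Agent.P354KX

variable {U : R4 → Ix → ℝ} {B D : Set R4} {g : Tw} {Y : R4 → R4} {p : R4}

/-- The sum of the two null vectors of the frame. -/
def yf (U : R4 → Ix → ℝ) (p : R4) : R4 := (2, 0, U p .b1, U p .b2)

lemma met_yy (U : R4 → Ix → ℝ) (p : R4) : met U p (yf U p) (yf U p) = -4 * U p .O ^ 2 := by
  simp only [met, eta, th, yf]
  simp
  ring

lemma met_ny (U : R4 → Ix → ℝ) (p : R4) : met U p nv (yf U p) = -2 * U p .O ^ 2 := by
  simp only [met, eta, th, yf, nv]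
  simp
  ring

lemma met_nn (U : R4 → Ix → ℝ) (p : R4) : met U p nv nv = 0 := by
  simp only [met, eta, th, nv]
  simp

/-- The metric of a double null chart is Lorentzian. -/
lemma lor_fu (h : Fu U B) (o : IsOpen B) : Lor (met U) B (yf U) := by
  obtain ⟨-, v, m⟩ := h.vac o
  refine ⟨o, m, v, fun p hp => ?_, fun p hp => ?_, ?_⟩
  · set L : R4 → R4 := fun a => (U p .O * (th (U p) a 0 + th (U p) a 1),
      U p .O * (th (U p) a 0 - th (U p) a 1), U p .O * th (U p) a 2, U p .O * th (U p) a 3) with hL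
    have e : ∀ a b, met U p a b = mink (L a) (L b) := fun a b => by
      simp only [hL, met, eta, mink, P354n.cu, P354n.cv, P354n.c1, P354n.c2]
      ring
    refine ⟨L, ⟨fun a b => ?_, fun c a => ?_⟩, fun a b k => ?_, e⟩
    · simp only [hL, th, Prod.mk_add_mk, Prod.fst_add, Prod.snd_add, Matrix.cons_val_zero,
        Matrix.cons_val_one, Matrix.cons_val, Prod.mk.injEq]
      refine ⟨?_, ?_, ?_, ?_⟩ <;> ring
    · simp only [hL, th, Prod.smul_mk, Prod.smul_fst, Prod.smul_snd, smul_eq_mul,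
        Matrix.cons_val_zero, Matrix.cons_val_one, Matrix.cons_val, Prod.mk.injEq]
      refine ⟨?_, ?_, ?_, ?_⟩ <;> ring
    · refine sub_eq_zero.1 (m.nondeg p hp _ fun c => ?_)
      rw [m.symm p hp, (m.lin p hp c).map_sub, e c a, e c b, k, sub_self]
  · rw [met_yy]
    have := (h.2 p hp).1
    nlinarith [pow_pos this 2]
  · exact continuousOn_const.prodMk (continuousOn_const.prodMk
      ((h.1 .b1).continuousOn.prodMk (h.1 .b2).continuousOn))

/-- Two timelike vectors on the same side of a causal vector are in the same cone. -/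
lemma cone_mid (l : Lor g D Y) (hp : p ∈ D) {u v n : R4} (hu : g p u u < 0) (hv : g p v v < 0)
    (hn : g p n n ≤ 0) (h1 : g p n u < 0) (h2 : g p n v < 0) : g p u v < 0 := by
  rw [l.met.symm p hp] at h1 h2
  obtain ⟨L, -, -, e⟩ := l.sig p hp
  rw [e] at hu hv hn h1 h2 ⊢
  have k1 := mink_pos hu hn h1
  have k2 := mink_pos hv hn h2
  refine mink_neg hu hv.le ?_
  by_contra c
  have k3 := mul_pos k1 k2
  nlinarith [mul_nonneg (neg_nonneg.2 (not_lt.1 c)) (mul_self_nonneg (L n).1)]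

/-- The cutoff. -/
def ct (R w : ℝ) (p : R4) : ℝ :=
  max 0 (min 1 (min ((vv p - (R - 15 / 8 * w)) / (3 / 8 * w)) (4 - ‖p.2.2‖)))

lemma ct_cont (R w : ℝ) : Continuous (ct R w) := by
  unfold ct vv
  fun_prop

lemma ct_mem (R w : ℝ) (p : R4) : 0 ≤ ct R w p ∧ ct R w p ≤ 1 :=
  ⟨le_max_left _ _, max_le zero_le_one (min_le_left _ _)⟩

lemma ct_zero {R w : ℝ} (hw : 0 < w) (h : vv p ≤ R - 15 / 8 * w ∨ 4 ≤ ‖p.2.2‖) :
    ct R w p = 0 := by
  refine max_eq_left (min_le_of_right_le ?_)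
  rcases h with h | h
  · exact min_le_of_left_le (div_nonpos_of_nonpos_of_nonneg (by linarith) (by linarith))
  · exact min_le_of_right_le (by linarith)

lemma ct_one {R w : ℝ} (hw : 0 < w) (h : ¬(vv p ≤ R - 3 / 2 * w ∨ 3 ≤ ‖p.2.2‖)) :
    ct R w p = 1 := by
  obtain ⟨h1, h2⟩ := not_or.1 h
  have k : (1 : ℝ) ≤ (vv p - (R - 15 / 8 * w)) / (3 / 8 * w) := by
    rw [le_div_iff₀ (by linarith)]
    linarith [not_le.1 h1]
  rw [ct, min_eq_left (le_min k (by linarith [not_le.1 h2])), max_eq_right zero_le_one]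

lemma sk_compact (T δ R w : ℝ) : IsCompact (Sk T δ R w) := by
  have c : Continuous fun q : ℝ × ℝ × (ℝ × ℝ) => ((q.1, q.2.1 - q.1, q.2.2) : R4) := by fun_prop
  have k := ((isCompact_Icc (a := -δ) (b := T + δ)).prod ((isCompact_Icc (a := R - 15 / 8 * w)
    (b := R + 5 / 2 * w)).prod (isCompact_closedBall (0 : ℝ × ℝ) 4))).image c
  refine k.of_isClosed_subset ?_ fun p hp => ⟨(p.1, vv p, p.2.2), ⟨hp.1, hp.2.1, ?_⟩, ?_⟩
  · exact (isClosed_Icc.preimage continuous_fst).inter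
      ((isClosed_Icc.preimage (continuous_fst.add continuous_snd.fst)).inter
        (isClosed_le continuous_snd.snd.norm continuous_const))
  · exact mem_closedBall_zero_iff.2 hp.2.2
  · simp only [vv, add_sub_cancel_left]

theorem glue : GLUE := by
  intro g D Xf J b σ T δ R w U Ψ j U' δ' δ3 l s h3 h4 h5 fu ag
  obtain ⟨hT, hδ, hw⟩ := s.pos
  have b1 : Bk T δ3 R w ⊆ Bk T δ' R w := fun p hp =>
    ⟨⟨by linarith [hp.1.1], by linarith [hp.1.2]⟩, hp.2⟩
  have b2 : Bk T δ3 R w ⊆ Dm T δ R w := fun p hp =>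
    ⟨⟨by linarith [hp.1.1], by linarith [hp.1.2]⟩,
      ⟨by linarith [hp.2.1.1], by linarith [hp.2.1.2]⟩, by linarith [hp.2.2]⟩
  have b3 : Sk T δ3 R w ⊆ Dm T δ R w := fun p hp =>
    ⟨⟨by linarith [hp.1.1], by linarith [hp.1.2]⟩,
      ⟨by have := hp.2.1.1; simp only [vv] at this; linarith,
        by have := hp.2.1.2; simp only [vv] at this; linarith⟩, by linarith [hp.2.2]⟩
  have o : IsOpen (Bk T δ3 R w) := box_open _ _ _ _ _
  have sm := s.pull.smooth.mono b2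
  have i1 := s.inj.mono b2
  have i2 : ∀ p ∈ Bk T δ3 R w, Function.Injective (fderiv ℝ Ψ p) := fun p hp =>
    s.pull.inj p (b2 hp)
  obtain ⟨g1, Y1, l1, -, e1⟩ := lor_push (lor_fu (fu.mono b1) o) sm i1 i2
  obtain ⟨h, li, sh, -⟩ := exists_inv o sm i1 i2
  have o2 : IsOpen (D \ Ψ '' Sk T δ3 R w) := l.isOpen.sdiff
    ((sk_compact _ _ _ _).image_of_continuousOn (s.pull.smooth.continuousOn.mono b3)).isClosed
  -- off the support
  have off : ∀ p ∈ Bk T δ3 R w, Ψ p ∉ Ψ '' Sk T δ3 R w →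
      vv p ≤ R - 15 / 8 * w ∨ 4 ≤ ‖p.2.2‖ := fun p hp k => by
    by_contra c
    obtain ⟨c1, c2⟩ := not_or.1 c
    exact k ⟨p, ⟨⟨hp.1.1.le, hp.1.2.le⟩, ⟨(not_le.1 c1).le, hp.2.1.2.le⟩, (not_le.1 c2).le⟩, rfl⟩
  have m1 : ∀ p ∈ Bk T δ3 R w, ∀ a c,
      met U' p a c = g1 (Ψ p) (fderiv ℝ Ψ p a) (fderiv ℝ Ψ p c) := fun p hp a c => by
    rw [← (e1 p hp).1]
    rfl
  have same : ∀ p ∈ Bk T δ3 R w, vv p ≤ R - 3 / 2 * w ∨ 3 ≤ ‖p.2.2‖ → g1 (Ψ p) = g (Ψ p) :=
    fun p hp k => by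
      funext a c
      obtain ⟨a, rfl⟩ := surj_of_inj (i2 p hp) a
      obtain ⟨c, rfl⟩ := surj_of_inj (i2 p hp) c
      rw [← m1 p hp, ← s.pull.eq p (b2 hp)]
      simp only [met, ag p (b1 hp) k]
  classical
  set g' : Tw := fun x => if x ∈ Ψ '' Sk T δ3 R w then g1 x else g x with hg
  set X' : R4 → R4 := fun x => if x ∈ Ψ '' Sk T δ3 R w then
    ct R w (h x) • Y1 x + (1 - ct R w (h x)) • Xf x else Xf x with hX
  have out : ∀ x ∉ Ψ '' Sk T δ3 R w, g' x = g x ∧ X' x = Xf x := fun x k =>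
    ⟨if_neg k, if_neg k⟩
  have inn : ∀ x ∈ Ψ '' Bk T δ3 R w, g' x = g1 x ∧
      X' x = ct R w (h x) • Y1 x + (1 - ct R w (h x)) • Xf x := by
    rintro _ ⟨p, hp, rfl⟩
    by_cases k : Ψ p ∈ Ψ '' Sk T δ3 R w
    · exact ⟨if_pos k, if_pos k⟩
    · have k1 := off p hp k
      refine ⟨(out _ k).1.trans (same p hp (k1.imp (fun a => by linarith)
        fun a => by linarith)).symm, ?_⟩
      rw [(out _ k).2, li p hp, ct_zero hw k1, zero_smul, zero_add, sub_zero, one_smul]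
  have key : ∀ p ∈ Bk T δ3 R w, g' (Ψ p) (X' (Ψ p)) (X' (Ψ p)) < 0 ∧
      g' (Ψ p) (fderiv ℝ Ψ p nv) (X' (Ψ p)) < 0 := fun p hp => by
    have m : Ψ p ∈ Ψ '' Bk T δ3 R w := ⟨p, hp, rfl⟩
    have y1 := l1.tl _ m
    have y2 : g1 (Ψ p) (fderiv ℝ Ψ p nv) (Y1 (Ψ p)) < 0 := by
      rw [(e1 p hp).2, ← m1 p hp, met_ny]
      nlinarith [pow_pos (fu.2 p (b1 hp)).1 2]
    rw [(inn _ m).1, (inn _ m).2, li p hp]
    by_cases k : vv p ≤ R - 3 / 2 * w ∨ 3 ≤ ‖p.2.2‖
    · have x1 : g1 (Ψ p) (Xf (Ψ p)) (Xf (Ψ p)) < 0 := by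
        rw [same p hp k]
        exact l.tl _ (s.pull.maps (b2 hp))
      have x2 : g1 (Ψ p) (fderiv ℝ Ψ p nv) (Xf (Ψ p)) < 0 := by
        rw [same p hp k]
        exact s.fut p (b2 hp)
      have x3 := cone_mid l1 m y1 x1 (by rw [← m1 p hp, met_nn]) y2 x2
      obtain ⟨c0, c1⟩ := ct_mem R w p
      generalize ct R w p = c at c0 c1
      rw [met_comb l1.met m, met_comb' l1.met m, met_comb' l1.met m, met_comb l1.met m,
        l1.met.symm _ m (Xf _) (Y1 _)]
      have c2 : 0 ≤ 1 - c := by linarith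
      obtain rfl | c3 := c0.eq_or_lt
      · constructor <;> linarith
      · constructor
        · nlinarith [mul_pos (mul_pos c3 c3) (neg_pos.2 y1),
            mul_nonneg (mul_nonneg c0 c2) (neg_pos.2 x3).le,
            mul_nonneg (mul_nonneg c2 c2) (neg_pos.2 x1).le]
        · nlinarith [mul_pos c3 (neg_pos.2 y2), mul_nonneg c2 (neg_pos.2 x2).le]
    · rw [ct_one hw k, one_smul, sub_self, zero_smul, add_zero]
      exact ⟨y1, y2⟩
  have lw : Lor g' (Ψ '' Bk T δ3 R w ∪ D \ Ψ '' Sk T δ3 R w) X' := by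
    refine lor_local (l1.isOpen.union o2) ?_ ?_ ?_
    · rintro x (k | k)
      · exact ⟨g1, _, Y1, l1, k, mem_of_superset (l1.isOpen.mem_nhds k) fun y a => (inn y a).1⟩
      · exact ⟨g, D, Xf, l, k.1, mem_of_superset (o2.mem_nhds k) fun y a => (out y a.2).1⟩
    · rintro x (⟨p, hp, rfl⟩ | k)
      · exact (key p hp).1
      · rw [(out x k.2).1, (out x k.2).2]
        exact l.tl x k.1
    · have c : ContinuousOn (fun x => ct R w (h x)) (Ψ '' Bk T δ3 R w) :=
        (ct_cont R w).comp_continuousOn sh.continuousOn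
      have d : Ψ '' Bk T δ3 R w ⊆ D := fun _ ⟨p, hp, e⟩ => e ▸ s.pull.maps (b2 hp)
      refine ContinuousOn.union_of_isOpen ?_ ?_ l1.isOpen o2
      · exact ((c.smul l1.cont).add ((continuousOn_const.sub c).smul (l.cont.mono d))).congr
          fun y a => (inn y a).2
      · exact (l.cont.mono sdiff_subset).congr fun y a => (out y a.2).2
  refine ⟨g', X', lw, ⟨o, lw.isOpen, lw.met, sm, fun p hp => Or.inl ⟨p, hp, rfl⟩, i2,
    fun p hp a c => ?_⟩, fun p hp => (key p hp).2, out⟩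
  rw [(inn _ ⟨p, hp, rfl⟩).1, m1 p hp]

end Vale.Agent.P354GL
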